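import Vale.Agent.P181.H382.Defs
import Vale.Agent.P181.BAL.Defs
import Vale.Agent.P181.GK.H809.Fil
import Vale.Agent.P181.TL.H797.CoreN

set_option autoImplicit false

/-!
# P181, LL, L6: the core from the blocks
-/

namespace Vale.Agent.P181.H382.H755

open Vale.Agent.P181.T4 (HW)
open Vale.Agent.P181.H280 (plethMult)
open Vale.Agent.P181.TL (KK dn2)
open Vale.Agent.P181.TL.H797 (bal bal_le sum_bal)

theorem le_bal (a t : ℕ) (i : Fin a) : t / a ≤ bal a t i := Nat.le_add_right _ _

theorem sum_three {k : ℕ} (f : Fin (k + 3) → ℕ) : ∑ i, f i = f 0 + (f 1 + dn2 f) := by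
  rw [Fin.sum_univ_succ, Fin.sum_univ_succ]
  rfl

theorem wj_sum {k : ℕ} (E j : ℕ) (tau : Fin (k + 1) → ℕ) :
    ∑ i, wj E j tau i = (E - (j + ∑ i, tau i)) + (j + ∑ i, tau i) := by
  rw [sum_three]
  rfl

/-- **(L6)** -/
theorem coreN (h1 : TL.UpB) (h2 : TL.BalB) (h5 : LowM) (hp : GK.PadPos) (hBal : BAL.Balance)
    (hz : ∀ (a b n : ℕ) (lam : Fin n → ℕ), plethMult a b n lam ≠ 0 → ∑ i, lam i = a * b) :
    CoreN := by
  obtain ⟨a0, hpos⟩ := Vale.Agent.P181.GK.H809.pos_two
  refine ⟨a0, ?_⟩
  intro a b k e n m X h R K lam h10 hsum hae ha12 hm hX hh han hnb hKe hkey1 hkey2 hR hRe hL hnum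
  have ha0 : 0 < a := by omega
  set t := dn2 lam with htdef
  set tau : Fin (k + 1) → ℕ := fun i => lam i.succ.succ with htau
  have httau : ∑ i, tau i = t := rfl
  have htau0 : tau 0 = lam 2 := rfl
  have htot : lam 0 + (lam 1 + t) = a * b := by rw [← hsum, sum_three]
  have hK5 : K * (5 * a - 6) = K * (4 * a + 6) + K * (a - 12) := by
    rw [← Nat.mul_add]
    congr 1
    omega
  have hK9 : K * (4 * a + 6) + K * (5 * a - 6) = a * (9 * K) := by
    rw [← Nat.mul_add, show 4 * a + 6 + (5 * a - 6) = 9 * a by omega]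
    ring
  have h9 : 9 * K ≤ b := by omega
  -- the lower bound
  obtain ⟨i0, hi0, e5⟩ := h5 k a e n m X h R tau (bal a t) ha0 hm hX hh han
    (fun i => by rw [httau]; exact le_bal a t i) (by rw [httau]; exact sum_bal ha0 t)
    (by rw [httau]; exact hkey1) (by rw [httau]; exact hkey2) (by rw [htau0]; exact hR)
    (by rw [httau]; exact hRe)
  rw [htau0] at hi0 e5
  set I := n * (n / m) + 2 * e * h + lam 2 with hI
  -- the intermediate weight
  set lam' : Fin (k + 3) → ℕ := fun i =>
    if (i : ℕ) = 0 then lam i - K * (4 * a + 6) else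
      if (i : ℕ) = 1 then lam i - K * (5 * a - 6) else lam i with hlam'
  have e0 : lam' 0 = lam 0 - K * (4 * a + 6) := by
    simp [hlam']
  have e1 : lam' 1 = lam 1 - K * (5 * a - 6) := by
    simp [hlam']
  have etail : (fun i : Fin (k + 1) => lam' i.succ.succ) = tau := by
    funext i
    simp only [hlam', htau, Fin.val_succ]
    rw [if_neg (by omega), if_neg (by omega)]
  have hK1 : K * (5 * a - 6) ≤ lam 1 := by omega
  have hK0 : K * (4 * a + 6) ≤ lam 0 := by omega
  set b' := n + 2 * h with hb'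
  have hab' : a * b' + a * (9 * K) = a * b := by rw [← Nat.mul_add, hnb]
  have heb : e * b' ≤ e * b := Nat.mul_le_mul_left _ (by omega)
  have hae' : (a - e) * b' + e * b' = a * b' := by
    rw [← Nat.add_mul, Nat.sub_add_cancel (by omega)]
  have key2 : plethMult b' e (k + 3) (wj (e * b') i0 tau) ≤ plethMult b' a (k + 3) lam' := by
    by_cases h0 : plethMult b' e (k + 3) (wj (e * b') i0 tau) = 0
    · rw [h0]
      exact Nat.zero_le _
    · have hs := hz _ _ _ _ h0
      rw [wj_sum, httau, mul_comm b' e] at hs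
      have hit : i0 + t ≤ e * b' := by omega
      have p1 := hpos (a - e) b' (lam' 0 - (e * b' - (i0 + t))) (lam' 1 - i0) (by omega)
        (by rw [e1]; omega) (by rw [e0, e1]; omega) (by rw [e0, e1]; omega)
      have q1 := hp b' (a - e) (k + 1) _ p1
      have s1 := FR.plethMult_pt (c := e) (lam := wj (e * b') i0 tau) q1
      rw [Nat.sub_add_cancel (show e ≤ a by omega)] at s1
      refine s1.trans (le_of_eq ?_)
      congr 1
      funext i
      refine Fin.cases ?_ (fun j => Fin.cases ?_ (fun l => ?_) j) i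
      · change lam' 0 - (e * b' - (i0 + t)) + (e * b' - (i0 + t)) = lam' 0
        rw [e0]
        omega
      · change lam' 1 - i0 + i0 = lam' 1
        rw [e1]
        omega
      · change 0 + tau l = lam' l.succ.succ
        rw [Nat.zero_add]
        exact (congrFun etail l).symm
  -- balancing
  have e7 := hBal a b' (k + 1) K lam' lam (by omega) (by rw [e0, e1]; omega)
    (by rw [e0]; omega) (by rw [e1]; omega) (fun i => (congrFun etail i).symm)
  rw [hnb] at e7
  have u1 := h1 a b (k + 1) lam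
  have u2 := h2 (k + 1) a tau (bal a t) ha0 (bal_le a _) (by rw [httau]; exact sum_bal ha0 _)
  rw [httau] at u2
  have c1 : n * X + 1 ≤ a * b + 1 := by
    have : n * X ≤ (m * (X + 1) + X) * n := by
      rw [mul_comm n X]
      exact Nat.mul_le_mul_right _ (Nat.le_add_left _ _)
    omega
  have c2 : I + 1 ≤ a * b + 1 := by omega
  have c3 : K * (a - 12) + 1 ≤ a * b + 1 := by omega
  have key : (a * b + 1) ^ 3 * plethMult a b (k + 3) lam ≤
      (a * b + 1) ^ 3 * plethMult b a (k + 3) lam := by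
    calc (a * b + 1) ^ 3 * plethMult a b (k + 3) lam
        ≤ (a * b + 1) ^ 3 * ((a + b).choose a *
            Module.finrank ℂ (HW (k + 1) (Fin a) tau)) := Nat.mul_le_mul_left _ u1
      _ ≤ (a * b + 1) ^ 3 * ((a + b).choose a * ((a + t - 1).choose t *
            Module.finrank ℂ (KK (k + 1) (Fin a) (bal a t) tau))) :=
          Nat.mul_le_mul_left _ (Nat.mul_le_mul_left _ u2)
      _ = ((a + b).choose a * (a + t - 1).choose t * (a * b + 1) ^ 3) *
            Module.finrank ℂ (KK (k + 1) (Fin a) (bal a t) tau) := by ring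
      _ ≤ X ^ n * Module.finrank ℂ (KK (k + 1) (Fin a) (bal a t) tau) :=
          Nat.mul_le_mul_right _ hnum
      _ ≤ (n * X + 1) * ((I + 1) * plethMult b' e (k + 3) (wj (e * b') i0 tau)) := e5
      _ ≤ (n * X + 1) * ((I + 1) * ((K * (a - 12) + 1) * plethMult b a (k + 3) lam)) :=
          Nat.mul_le_mul_left _ (Nat.mul_le_mul_left _ (key2.trans e7))
      _ ≤ (a * b + 1) * ((a * b + 1) * ((a * b + 1) * plethMult b a (k + 3) lam)) :=
          Nat.mul_le_mul c1 (Nat.mul_le_mul c2 (Nat.mul_le_mul_right _ c3))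
      _ = (a * b + 1) ^ 3 * plethMult b a (k + 3) lam := by ring
  exact Nat.le_of_mul_le_mul_left key (by positivity)

end Vale.Agent.P181.H382.H755
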