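import Vale.Agent.P181.H382.H755.Core
import Vale.Agent.P181.H530.Zero
import Vale.Agent.P181.GK.H435.Pad
import Vale.Agent.P181.TL.H214.UpB
import Vale.Agent.P181.TL.H639.BalB
import Vale.Agent.P181.BAL.H676.Fin
import Vale.Agent.P181.BAL.H467.Nine

set_option autoImplicit false

/-!
# P181, LL, L6: the core from the lower bound L5
-/

namespace Vale.Agent.P181.H382.H755

open Vale.Agent.P181.H280 (plethMult)

theorem sum_of_mult (a b n : ℕ) (lam : Fin n → ℕ) (h : plethMult a b n lam ≠ 0) :
    ∑ i, lam i = a * b := by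
  obtain ⟨G, p, hG, hH, hp⟩ := H530.exists_ne_of_plethMult h
  exact H530.sum_of hG hH hp

/-- **(L6)** from L5 only. -/
theorem coreN_of (h5 : LowM) : CoreN :=
  coreN TL.H214.upB TL.H639.balB h5 GK.H435.padPos (BAL.H676.balance_of BAL.H467.nine) sum_of_mult

end Vale.Agent.P181.H382.H755
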