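import Vale.Agent.P181.H382.H755.CoreS
import Vale.Agent.P181.H382.H755.CoreF

set_option autoImplicit false

/-!
# P181, LS, S3: the core from UpC, CntC and LowM
-/

namespace Vale.Agent.P181.H382.H755

open Vale.Agent.P181.H382.H112

/-- **(S3)** from S1, S2, L5. -/
theorem coreS_of (hU : UpC) (hC : CntC) (h5 : LowM) : CoreS :=
  coreS hU hC h5 GK.H435.padPos (BAL.H676.balance_of BAL.H467.nine) sum_of_mult

end Vale.Agent.P181.H382.H755
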