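import Vale.Agent.P181.H382.H755.All
import Vale.Agent.P181.H382.H755.CoreSF
import Vale.Agent.P181.H382.H112.Up
import Vale.Agent.P181.H382.H514.Cnt

set_option autoImplicit false

/-!
# P181, LS: the core without hypotheses
-/

namespace Vale.Agent.P181.H382.H755

open Vale.Agent.P181.H382.H112

theorem coreS_closed : CoreS := coreS_of H112.upC H514.cntC lowM_closed

end Vale.Agent.P181.H382.H755
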