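import Vale.Agent.P181.H382.H556.Pig
import Vale.Agent.P181.H382.H487.KeyN
import Vale.Agent.P181.H382.H221.Flat
import Vale.Agent.P181.H382.H648.LowM

set_option autoImplicit false

/-!
# P181, LL, L5 from L1 only
-/

namespace Vale.Agent.P181.H382.H755

theorem lowM_of (h1 : LowN) : LowM := H648.lowM h1 H556.pigN H487.keyN H221.flatN

end Vale.Agent.P181.H382.H755
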