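import Vale.Agent.P181.H382.H755.AllT
import Vale.Agent.P181.H382.H820.U1

set_option autoImplicit false

/-!
# P181, LSU: two long rows for every `a < b`, without hypotheses
-/

namespace Vale.Agent.P181.H382.H755

theorem twoLongSU_closed : U.TwoLongSU := H820.twoLongSU coreS_closed

theorem rhoP_closed : H112.RhoP := H820.rhoP coreS_closed

end Vale.Agent.P181.H382.H755
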