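import Vale.Agent.P181.H382.H755.CoreF
import Vale.Agent.P181.H382.H755.Low
import Vale.Agent.P181.H382.H605.LowN
import Vale.Agent.P181.H382.H820.L7
import Vale.Agent.P181.BL.H650.One
import Vale.Agent.P181.BL.H118.BordR
import Vale.Agent.P181.BL.H118.MinR

set_option autoImplicit false

/-!
# P181, LL: the blocks L1 - L7 without hypotheses
-/

namespace Vale.Agent.P181.H382.H755

theorem lowN_closed : LowN := H605.lowN (BL.H650.oneR BL.H118.bordR BL.H118.minR)

theorem lowM_closed : LowM := lowM_of lowN_closed

theorem coreN_closed : CoreN := coreN_of lowM_closed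

theorem twoLongN_closed : TwoLongN := H820.twoLongN coreN_closed

end Vale.Agent.P181.H382.H755
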