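import Vale.Agent.P181.H382.H755.AllS
import Vale.Agent.P181.H382.H820.S4

set_option autoImplicit false

/-!
# P181, LS: two long rows, without hypotheses
-/

namespace Vale.Agent.P181.H382.H755

open Vale.Agent.P181.H382.H112

theorem twoLongS_closed : TwoLongS := H820.twoLongS coreS_closed

end Vale.Agent.P181.H382.H755
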